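import Vale.Agent.P235.ST.H317.Defs

/-! P235, (ST) O(1), rows r1 and r2: reachability in bands, the clocks are 1-Lipschitz, (T), (M).
helper234. -/

namespace Vale.Agent.P235.STO.H234

open SimpleGraph

variable {V : Type} (W : LWorld V)

theorem th_pos (k : ℕ) : 0 < th k := by unfold th; positivity

theorem reach_of_walk (k m : ℕ) {x y : V} (g : W.G.Walk x y)
    (h : ∀ z ∈ g.support, W.bi k m z = W.bi k m x) :
    (W.Bg k m).Reachable x y ∧ (W.Bg k m).dist x y ≤ g.length := by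
  have key : ∃ w : (W.Bg k m).Walk x y, w.length = g.length := by
    induction g with
    | nil => exact ⟨Walk.nil, rfl⟩
    | @cons a b c hab p ih =>
        have hb : W.bi k m b = W.bi k m a :=
          h b (by rw [Walk.support_cons]; exact List.mem_cons_of_mem _ p.start_mem_support)
        obtain ⟨w, hw⟩ := ih (fun z hz => by
          rw [h z (by rw [Walk.support_cons]; exact List.mem_cons_of_mem _ hz), hb])
        have h2 : (W.Bg k m).Adj a b := ⟨hab, hb.symm⟩
        exact ⟨Walk.cons h2 w, by rw [Walk.length_cons, Walk.length_cons, hw]⟩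
  obtain ⟨w, hw⟩ := key
  exact ⟨⟨w⟩, hw ▸ (W.Bg k m).dist_le w⟩

theorem Bg_le (k m : ℕ) : W.Bg k m ≤ W.G := fun _ _ h => h.1

theorem bi_of_reach (k m : ℕ) {x y : V} (h : (W.Bg k m).Reachable x y) :
    W.bi k m x = W.bi k m y ∧ W.G.dist x y ≤ (W.Bg k m).dist x y := by
  constructor
  · obtain ⟨w⟩ := h
    induction w with
    | nil => rfl
    | cons hab _ ih => exact hab.2.trans ih
  · obtain ⟨w, hw⟩ := h.exists_walk_length_eq_dist
    have h2 := W.G.dist_le (w.mapLe (Bg_le W k m))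
    rw [Walk.length_map, hw] at h2
    exact h2

theorem height_le_walk {x y : V} (w : W.G.Walk x y) : |W.u x - W.u y| ≤ w.length := by
  induction w with
  | nil => simp
  | @cons a b c hab _ ih =>
      have h1 := W.unit a b hab
      rw [Walk.length_cons]
      push_cast
      have h2 : |W.u a - W.u c| ≤ |W.u a - W.u b| + |W.u b - W.u c| := by
        have := abs_add_le (W.u a - W.u b) (W.u b - W.u c)
        simpa using this
      omega

theorem height_le_dist (x y : V) : |W.u x - W.u y| ≤ W.G.dist x y := by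
  obtain ⟨w, hw⟩ := W.conn.exists_walk_length_eq_dist x y
  rw [← hw]
  exact height_le_walk W w

theorem height_along {x y : V} (w : W.G.Walk x y) {z : V} (hz : z ∈ w.support) :
    |W.u x - W.u z| ≤ w.length := by
  classical
  have h1 := height_le_walk W (w.takeUntil z hz)
  have h2 := congrArg Walk.length (w.take_spec hz)
  rw [Walk.length_append] at h2
  have h3 : ((w.takeUntil z hz).length : ℤ) ≤ w.length := by exact_mod_cast (by omega)
  linarith

/-- on a walk of the length of its height difference all heights are between those of the ends -/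
theorem monotone_walk {a b : V} (hab : W.u a ≤ W.u b) (q : W.G.Walk a b)
    (hq : (q.length : ℤ) = W.u b - W.u a) {z : V} (hz : z ∈ q.support) :
    W.u a ≤ W.u z ∧ W.u z ≤ W.u b := by
  classical
  have h1 := height_le_walk W (q.takeUntil z hz)
  have h2 := height_le_walk W (q.dropUntil z hz)
  have h3 := congrArg Walk.length (q.take_spec hz)
  rw [Walk.length_append] at h3
  have h4 : ((q.takeUntil z hz).length : ℤ) + (q.dropUntil z hz).length = W.u b - W.u a := by
    rw [← hq]; exact_mod_cast h3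
  rw [abs_le] at h1 h2
  constructor <;> linarith [h1.1, h1.2, h2.1, h2.2]

theorem bi_between (k m : ℕ) {a b z : V} (h1 : W.u a ≤ W.u z) (h2 : W.u z ≤ W.u b)
    (h : W.bi k m a = W.bi k m b) : W.bi k m z = W.bi k m a := by
  unfold LWorld.bi at *
  have h3 : (W.u a + m * 2 ^ k) / th k ≤ (W.u z + m * 2 ^ k) / th k :=
    Int.ediv_le_ediv (th_pos k) (by omega)
  have h4 : (W.u z + m * 2 ^ k) / th k ≤ (W.u b + m * 2 ^ k) / th k :=
    Int.ediv_le_ediv (th_pos k) (by omega)
  omega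

theorem bi_lt (k m : ℕ) {a b : V} (h : W.bi k m a = W.bi k m b) : |W.u a - W.u b| < th k := by
  unfold LWorld.bi at h
  have e1 := Int.emod_add_mul_ediv (W.u a + m * 2 ^ k) (th k)
  have e2 := Int.emod_add_mul_ediv (W.u b + m * 2 ^ k) (th k)
  have e3 := Int.emod_nonneg (W.u a + m * 2 ^ k) (th_pos k).ne'
  have e4 := Int.emod_nonneg (W.u b + m * 2 ^ k) (th_pos k).ne'
  have e5 := Int.emod_lt_of_pos (W.u a + m * 2 ^ k) (th_pos k)
  have e6 := Int.emod_lt_of_pos (W.u b + m * 2 ^ k) (th_pos k)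
  rw [h] at e1
  rw [abs_lt]
  constructor <;> linarith

theorem reach_of_L (k m : ℕ) {p a b : V} (hp : p ∈ W.N) (ha : a ∈ W.L p) (hb : b ∈ W.L p)
    (h : W.bi k m a = W.bi k m b) :
    (W.Bg k m).Reachable a b ∧ ((W.Bg k m).dist a b : ℤ) ≤ |W.u a - W.u b| := by
  rcases le_total (W.u a) (W.u b) with hab | hab
  · obtain ⟨q, hq, _⟩ := W.L_path p hp a ha b hb hab
    obtain ⟨h1, h2⟩ := reach_of_walk W k m q (fun z hz => by
      obtain ⟨h3, h4⟩ := monotone_walk W hab q hq hz
      exact bi_between W k m h3 h4 h)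
    refine ⟨h1, ?_⟩
    rw [abs_sub_comm, abs_of_nonneg (by omega), ← hq]
    exact_mod_cast h2
  · obtain ⟨q, hq, _⟩ := W.L_path p hp b hb a ha hab
    obtain ⟨h1, h2⟩ := reach_of_walk W k m q (fun z hz => by
      obtain ⟨h3, h4⟩ := monotone_walk W hab q hq hz
      exact bi_between W k m h3 h4 h.symm)
    refine ⟨h1.symm, ?_⟩
    rw [abs_of_nonneg (by omega), ← hq, SimpleGraph.dist_comm]
    exact_mod_cast h2

theorem src_eq (k m : ℕ) {x y : V} (h : (W.Bg k m).Reachable x y) :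
    W.src k m x = W.src k m y := by
  ext z
  constructor
  · rintro ⟨h1, h2, h3⟩
    exact ⟨h.symm.trans h1, h2, fun w hw hr => h3 w hw (h.trans hr)⟩
  · rintro ⟨h1, h2, h3⟩
    exact ⟨h.trans h1, h2, fun w hw hr => h3 w hw (h.symm.trans hr)⟩

theorem D_le (k m : ℕ) {x y : V} (hy : y ∈ W.src k m x) :
    W.D k m x ≤ (W.Bg k m).dist x y := Nat.sInf_le ⟨y, hy, rfl⟩

theorem D_spec (k m : ℕ) {x : V} (hx : (W.src k m x).Nonempty) :
    ∃ y ∈ W.src k m x, W.D k m x = (W.Bg k m).dist x y := by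
  obtain ⟨y, hy⟩ := hx
  exact Nat.sInf_mem (s := {n | ∃ y ∈ W.src k m x, n = (W.Bg k m).dist x y}) ⟨_, y, hy, rfl⟩

theorem src_nonempty (k m : ℕ) {x : V} (hx : x ∈ W.N) : (W.src k m x).Nonempty := by
  have h1 : ({i | ∃ y ∈ W.N, (W.Bg k m).Reachable x y ∧ W.idx y = i} : Set ℕ).Nonempty :=
    ⟨_, x, hx, Reachable.refl _, rfl⟩
  obtain ⟨y, hy, hr, hi⟩ := Nat.sInf_mem h1
  exact ⟨y, hr, hy, fun z hz hrz => by rw [hi]; exact Nat.sInf_le ⟨z, hz, hrz, rfl⟩⟩

theorem dist_tri (k m : ℕ) {x y z : V} (h1 : (W.Bg k m).Reachable x y)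
    (h2 : (W.Bg k m).Reachable y z) :
    (W.Bg k m).dist x z ≤ (W.Bg k m).dist x y + (W.Bg k m).dist y z := by
  obtain ⟨p, hp⟩ := h1.exists_walk_length_eq_dist
  obtain ⟨q, hq⟩ := h2.exists_walk_length_eq_dist
  rw [← hp, ← hq, ← Walk.length_append]
  exact (W.Bg k m).dist_le _

theorem D_lip [Finite V] (k m : ℕ) {x y : V} (h : (W.Bg k m).Reachable x y) :
    (W.D k m y : ℤ) ≤ W.D k m x + (W.Bg k m).dist x y := by
  rcases (W.src k m x).eq_empty_or_nonempty with he | hne
  · have he' : W.src k m y = ∅ := by rw [← src_eq W k m h, he]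
    have : W.D k m y = 0 := by
      unfold LWorld.D
      rw [he']
      simp
    rw [this]
    positivity
  · obtain ⟨z, hz, hd⟩ := D_spec W k m hne
    have h1 := D_le W k m (x := y) (y := z) (by rw [← src_eq W k m h]; exact hz)
    have h2 := dist_tri W k m h.symm hz.1
    rw [SimpleGraph.dist_comm (u := y) (v := x)] at h2
    rw [hd]
    exact_mod_cast (by omega)

/-- a shortest walk from the source meets the line of `p` -/
theorem meet (k m : ℕ) {p y : V} (hp : p ∈ W.N) (hy : y ∈ W.N)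
    (hr : (W.Bg k m).Reachable p y) (hi : W.idx p ≤ W.idx y) :
    ∃ s ∈ W.src k m y, ∃ z ∈ W.L p, W.bi k m p = W.bi k m z ∧
      (W.Bg k m).Reachable y z ∧ (W.Bg k m).Reachable z s ∧
      W.D k m y = (W.Bg k m).dist y z + (W.Bg k m).dist z s := by
  classical
  obtain ⟨s, hs, hd⟩ := D_spec W k m (src_nonempty W k m hy)
  obtain ⟨w, hw⟩ := hs.1.exists_walk_length_eq_dist
  have h1 : W.idx s ≤ W.idx p := hs.2.2 p hp hr.symm
  obtain ⟨z, hz, hL⟩ := W.sep p hp s hs.2.1 y hy h1 hi ((w.mapLe (Bg_le W k m)).reverse)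
  have hz' : z ∈ w.support := by simpa using hz
  have h3 := congrArg Walk.length (w.take_spec hz')
  rw [Walk.length_append, hw] at h3
  have h4 := (W.Bg k m).dist_le (w.takeUntil z hz')
  have h5 := (W.Bg k m).dist_le (w.dropUntil z hz')
  have r1 : (W.Bg k m).Reachable y z := ⟨w.takeUntil z hz'⟩
  have r2 : (W.Bg k m).Reachable z s := ⟨w.dropUntil z hz'⟩
  have h6 := dist_tri W k m r1 r2
  refine ⟨s, hs, z, hL, ?_, r1, r2, by omega⟩
  exact (bi_of_reach W k m (hr.trans r1)).1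

theorem D_T [Finite V] (k m : ℕ) {p q : V} (hp : p ∈ W.N) (hq : q ∈ W.N)
    (h : (W.Bg k m).Reachable p q) (hi : W.idx p ≤ W.idx q) :
    (W.D k m p : ℤ) + (W.Bg k m).dist p q ≤ W.D k m q + 2 * th k := by
  obtain ⟨s, hs, z, hz, hb, r1, r2, hd⟩ := meet W k m hp hq h hi
  obtain ⟨r3, h3⟩ := reach_of_L W k m hp (W.mem_L p hp) hz hb
  have h4 := bi_lt W k m hb
  have h5 : W.D k m p ≤ (W.Bg k m).dist p z + (W.Bg k m).dist z s :=
    (D_le W k m (by rw [src_eq W k m h]; exact hs)).trans (dist_tri W k m r3 r2)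
  have h6 := dist_tri W k m r3 r1.symm
  rw [SimpleGraph.dist_comm (u := z) (v := q)] at h6
  have h5' : (W.D k m p : ℤ) ≤ (W.Bg k m).dist p z + (W.Bg k m).dist z s := by exact_mod_cast h5
  have h6' : ((W.Bg k m).dist p q : ℤ) ≤ (W.Bg k m).dist p z + (W.Bg k m).dist q z := by
    exact_mod_cast h6
  have hd' : (W.D k m q : ℤ) = (W.Bg k m).dist q z + (W.Bg k m).dist z s := by exact_mod_cast hd
  linarith

theorem D_M [Finite V] (k m : ℕ) {q y : V} (hq : q ∈ W.N) (hy : y ∈ W.N)
    (h : (W.Bg k m).Reachable q y) (hi : W.idx q ≤ W.idx y) :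
    (W.D k m q : ℤ) ≤ W.D k m y + |W.u q - W.u y| := by
  obtain ⟨s, hs, z, hz, hb, r1, r2, hd⟩ := meet W k m hq hy h hi
  obtain ⟨r3, h3⟩ := reach_of_L W k m hq (W.mem_L q hq) hz hb
  have h5 : W.D k m q ≤ (W.Bg k m).dist q z + (W.Bg k m).dist z s :=
    (D_le W k m (by rw [src_eq W k m h]; exact hs)).trans (dist_tri W k m r3 r2)
  have h6 := height_le_dist W z y
  have h7 := (bi_of_reach W k m r1.symm).2
  rw [SimpleGraph.dist_comm (G := W.Bg k m) (u := z) (v := y)] at h7
  have h7' : (W.G.dist z y : ℤ) ≤ (W.Bg k m).dist y z := by exact_mod_cast h7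
  have h5' : (W.D k m q : ℤ) ≤ (W.Bg k m).dist q z + (W.Bg k m).dist z s := by exact_mod_cast h5
  have hd' : (W.D k m y : ℤ) = (W.Bg k m).dist y z + (W.Bg k m).dist z s := by exact_mod_cast hd
  have h8 : |W.u q - W.u z| ≤ |W.u q - W.u y| + |W.u z - W.u y| := by
    have := abs_sub_le (W.u q) (W.u y) (W.u z)
    rw [abs_sub_comm (W.u y) (W.u z)] at this
    exact this
  linarith

theorem exists_mid (k : ℕ) (z : V) : ∃ m < 16, W.mid k m z := by
  have h2k : (0 : ℤ) < 2 ^ k := by positivity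
  -- r = u z mod 16 * 2^k, c = r / 2^k < 16; choose m with (c + m) mod 16 = 8
  set r : ℤ := W.u z % th k with hr
  have hr0 : 0 ≤ r := Int.emod_nonneg _ (th_pos k).ne'
  have hr1 : r < th k := Int.emod_lt_of_pos _ (th_pos k)
  set c : ℤ := r / 2 ^ k with hc
  have hc0 : 0 ≤ c := Int.ediv_nonneg hr0 h2k.le
  have hc1 : c < 16 := by
    rw [hc, Int.ediv_lt_iff_lt_mul h2k]
    simpa [th] using hr1
  have hcr : 2 ^ k * c ≤ r ∧ r < 2 ^ k * c + 2 ^ k := by
    have e1 := Int.emod_add_mul_ediv r (2 ^ k)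
    have e2 := Int.emod_nonneg r h2k.ne'
    have e3 := Int.emod_lt_of_pos r h2k
    rw [← hc] at e1
    constructor <;> linarith
  have hpos : ∀ (m : ℕ) (j : ℤ), 0 ≤ r + m * 2 ^ k - j * th k → r + m * 2 ^ k - j * th k < th k →
      W.pos k m z = r + m * 2 ^ k - j * th k := by
    intro m j h1 h2
    unfold LWorld.pos
    have h3 : (W.u z + m * 2 ^ k) % th k = (r + m * 2 ^ k - j * th k) % th k := by
      apply Int.ModEq.eq
      have h4 : W.u z = r + th k * (W.u z / th k) := by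
        rw [hr]; exact (Int.emod_add_mul_ediv _ _).symm
      unfold Int.ModEq
      rw [show W.u z + m * 2 ^ k = (r + m * 2 ^ k - j * th k) + th k * (W.u z / th k + j) by
        linear_combination h4]
      rw [Int.add_mul_emod_self_left]
    rw [h3, Int.emod_eq_of_lt h1 h2]
  have hth : th k = 16 * 2 ^ k := rfl
  rcases le_or_gt c 8 with h8 | h8
  · refine ⟨(8 - c).toNat, by omega, ?_⟩
    have hm : (((8 - c).toNat : ℕ) : ℤ) = 8 - c := Int.toNat_of_nonneg (by omega)
    have h1 := hpos (8 - c).toNat 0 (by rw [hm]; nlinarith [hcr.1]) (by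
      rw [hm, hth]; nlinarith [hcr.2])
    rw [hm] at h1
    unfold LWorld.mid
    rw [h1]
    constructor <;> nlinarith [hcr.1, hcr.2]
  · refine ⟨(24 - c).toNat, by omega, ?_⟩
    have hm : (((24 - c).toNat : ℕ) : ℤ) = 24 - c := Int.toNat_of_nonneg (by omega)
    have h1 := hpos (24 - c).toNat 1 (by rw [hm, hth]; nlinarith [hcr.1]) (by
      rw [hm, hth]; nlinarith [hcr.2])
    rw [hm, hth] at h1
    unfold LWorld.mid
    rw [h1]
    constructor <;> nlinarith [hcr.1, hcr.2]

end Vale.Agent.P235.STO.H234
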