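import Vale.Agent.P235.ST.H317.Defs

/-! P235, [TREE]: definitions of the abstract world of lines indexed by the nodes of a tree
(a partial order), helper526's interface; letters of H317.Defs.  helper234. -/

namespace Vale.Agent.P235.STO

open SimpleGraph

/-- Tree world: finite connected graph, unit heights, lines `L i` indexed by nodes `i`;
`idx x` is the top node of `x`. -/
structure TWorld (V ι : Type) [PartialOrder ι] where
  G : SimpleGraph V
  u : V → ℤ
  idx : V → ι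
  L : ι → Set V
  conn : G.Connected
  unit : ∀ x y, G.Adj x y → |u x - u y| = 1
  mem_L : ∀ p, p ∈ L (idx p)
  L_low : ∀ i, ∀ z ∈ L i, idx z ≤ i
  L_path : ∀ i, ∀ a ∈ L i, ∀ b ∈ L i, u a ≤ u b → ∃ q : G.Walk a b, (q.length : ℤ) = u b - u a
  L_level : ∀ i x, ∃ z ∈ L i, u z = u x
  leave : ∀ i a b, i ≤ idx b → ¬ i ≤ idx a → ∀ q : G.Walk a b, ∃ z ∈ q.support, z ∈ L i
  meet : ∀ a b, ∃ i, i ≤ idx a ∧ i ≤ idx b ∧ ∀ q : G.Walk a b, ∃ z ∈ q.support, z ∈ L i

variable {V ι : Type} [PartialOrder ι]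

/-- real graph distance -/
noncomputable def TWorld.d (W : TWorld V ι) (x y : V) : ℝ := (W.G.dist x y : ℝ)

/-- position of `x` in its band -/
def TWorld.pos (W : TWorld V ι) (k m : ℕ) (x : V) : ℤ := (W.u x + m * 2 ^ k) % th k

/-- band index -/
def TWorld.bi (W : TWorld V ι) (k m : ℕ) (x : V) : ℤ := (W.u x + m * 2 ^ k) / th k

/-- the band graph: edges inside bands -/
def TWorld.Bg (W : TWorld V ι) (k m : ℕ) : SimpleGraph V where
  Adj x y := W.G.Adj x y ∧ W.bi k m x = W.bi k m y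
  symm := ⟨fun _ _ h => ⟨h.1.symm, h.2.symm⟩⟩
  loopless := ⟨fun _ h => W.G.loopless.irrefl _ h.1⟩

/-- top vertices of the component of `x` -/
def TWorld.src (W : TWorld V ι) (k m : ℕ) (x : V) : Set V :=
  {y | (W.Bg k m).Reachable x y ∧ ∀ z, (W.Bg k m).Reachable x z → W.idx y ≤ W.idx z}

/-- the clock -/
noncomputable def TWorld.D (W : TWorld V ι) (k m : ℕ) (x : V) : ℕ :=
  sInf {n | ∃ y ∈ W.src k m x, n = (W.Bg k m).dist x y}

/-- middle half of the band -/
def TWorld.mid (W : TWorld V ι) (k m : ℕ) (x : V) : Prop :=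
  4 * 2 ^ k ≤ W.pos k m x ∧ W.pos k m x ≤ 12 * 2 ^ k

/-- the clock `(k, m)` serves the pair `(z, y)` (`y` = descendant end) -/
def TWorld.serves (W : TWorld V ι) (k m : ℕ) (z y : V) : Prop :=
  W.mid k m y ∧ (¬ (W.Bg k m).Reachable z y ∨
    cp * W.d z y ≤ (W.D k m y : ℝ) - (W.D k m z : ℝ))

/-- unserved pairs for a scale function `ρ`; everything is read at the descendant end `y` -/
def TWorld.uns (W : TWorld V ι) (ρ : V → ℝ) (z y : V) : Prop :=
  W.u z = W.u y ∧ W.idx z ≤ W.idx y ∧ r0 ≤ W.d z y ∧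
    2 * W.d z y ≤ kap * ρ y ∧ ∀ k m, m < 16 → inList (ρ y) k → ¬ W.serves k m z y

open Classical in
/-- next scale function; the centre is the descendant end -/
noncomputable def TWorld.nxt [Fintype V] (W : TWorld V ι) (ρ : V → ℝ) (x : V) : ℝ :=
  ⨆ zy : V × V, if W.uns ρ zy.1 zy.2 then max 0 (W.d zy.1 zy.2 - W.d x zy.2 / kap) else 0

/-- scale functions; level `0` is constant -/
noncomputable def TWorld.rho [Fintype V] (W : TWorld V ι) : ℕ → V → ℝ
  | 0 => fun _ => (4 * Fintype.card V) / kap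
  | i + 1 => W.nxt (W.rho i)

/-- scale functions as in the plan -/
structure TWorld.Scale (W : TWorld V ι) (ρ : V → ℝ) : Prop where
  nonneg : ∀ x, 0 ≤ ρ x
  lip : ∀ x y, |ρ x - ρ y| ≤ W.d x y / kap

/-- invariant of the world after the tilts of all levels finer than the one of `ρ` and this one -/
structure TWorld.Inv (W : TWorld V ι) (ρ : V → ℝ) (w : V → ℝ) : Prop where
  sign : ∀ x y, W.G.Adj x y → 0 < (w x - w y) * ((W.u x : ℝ) - W.u y)
  close : ∀ x, |w x - W.u x| ≤ 2 * e1 * ρ x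
  lb : ∀ p q (g : W.G.Walk p q), C1 * d1 * ρ p ≤ W.d p q → c2 * W.d p q ≤ cost w g

/-- comparable target pair of scale function `ρ`, read at the descendant end `y` -/
def TWorld.tgt [Fintype V] (W : TWorld V ι) (ρ : V → ℝ) (z y : V) : Prop :=
  W.u z = W.u y ∧ W.idx z ≤ W.idx y ∧ r0 ≤ W.d z y ∧
    W.nxt ρ y < W.d z y ∧ W.d z y ≤ ρ y ∧
    (kap * ρ y < 2 * W.d z y ∨ ∃ k m, m < 16 ∧ inList (ρ y) k ∧ W.serves k m z y)

/-- the situation of a clock `(k, m)` around `p` for a walk `g` -/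
structure TWorld.Reg (W : TWorld V ι) (ρ : V → ℝ) (p : V) (k m : ℕ)
    {a b : V} (g : W.G.Walk a b) : Prop where
  m16 : m < 16
  big : 2 ^ 100 ≤ ρ p
  lo : 64 * d1 * ρ p ≤ (th k : ℝ)
  hi : (th k : ℝ) ≤ (2 / 3) * dl * ρ p
  ball : ∀ z ∈ g.support, W.d p z ≤ kap * ρ p / 4 + 1
  band : ∀ z ∈ g.support, 6 * 2 ^ k ≤ W.pos k m z ∧ W.pos k m z ≤ 9 * 2 ^ k
  same : ∀ z ∈ g.support, W.bi k m z = W.bi k m a

end Vale.Agent.P235.STO
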